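import Vale.Agent.P127.Mann.Disc

/-!
# P127, [F]: Mann's theorem for compact sets of reals

If `A`, `B ⊆ [0, ∞)` are compact, contain `0`, and `|A ∩ (0,w]| + |B ∩ (0,w]| ≥ γ w` for all
`0 ≤ w ≤ W`, `γ ≤ 1`, then `|(A + B) ∩ (0, W]| ≥ γ W`.
-/

set_option autoImplicit false

namespace Vale.Agent.P127.Mann

open Set MeasureTheory Filter Topology Metric
open scoped Pointwise

/-- cells of size `h` met by `A`, among the first `n` -/
noncomputable def cells (A : Set ℝ) (h : ℝ) (n : ℕ) : Finset ℕ :=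
  open Classical in (Finset.range (n + 1)).filter fun k => ∃ a ∈ A, 0 ≤ a ∧ ⌈a / h⌉₊ = k

lemma mem_cells {A : Set ℝ} {h : ℝ} {n k : ℕ} :
    k ∈ cells A h n ↔ k ≤ n ∧ ∃ a ∈ A, 0 ≤ a ∧ ⌈a / h⌉₊ = k := by
  classical
  simp [cells, Nat.lt_succ_iff]

lemma zero_mem_cells {A : Set ℝ} (h0 : (0:ℝ) ∈ A) (h : ℝ) (n : ℕ) : 0 ∈ cells A h n :=
  mem_cells.2 ⟨Nat.zero_le _, 0, h0, le_rfl, by simp⟩

/-- the measure is bounded by the number of cells -/
lemma measure_le_cells (A : Set ℝ) {h : ℝ} (hh : 0 < h) {n m : ℕ} (hm : m ≤ n) :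
    volume.real (A ∩ Ioc 0 (m * h)) ≤ h * cnt (cells A h n) m := by
  classical
  set s := (cells A h n).filter fun k => 1 ≤ k ∧ k ≤ m with hs
  have hsub : A ∩ Ioc 0 (m * h) ⊆ ⋃ k ∈ s, Ioc (((k:ℝ) - 1) * h) (k * h) := by
    rintro x ⟨hxA, hx0, hxm⟩
    have h1 : 0 < x / h := div_pos hx0 hh
    have h2 : ⌈x / h⌉₊ ≤ m := by
      rw [Nat.ceil_le, div_le_iff₀ hh]; exact hxm
    have h3 : 1 ≤ ⌈x / h⌉₊ := Nat.one_le_ceil_iff.2 h1
    have h4 : x / h ≤ ⌈x / h⌉₊ := Nat.le_ceil _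
    have h5 : (⌈x / h⌉₊ : ℝ) < x / h + 1 := Nat.ceil_lt_add_one h1.le
    rw [mem_iUnion₂]
    refine ⟨⌈x / h⌉₊, Finset.mem_filter.2 ⟨mem_cells.2 ⟨h2.trans hm, x, hxA, hx0.le, rfl⟩, h3, h2⟩,
      ?_, ?_⟩
    · rw [← lt_div_iff₀ hh]; linarith
    · rw [← div_le_iff₀ hh]; exact h4
  have hfin : volume (⋃ k ∈ s, Ioc (((k:ℝ) - 1) * h) (k * h)) ≠ ⊤ := by
    refine ((measure_biUnion_finset_le s _).trans_lt ?_).ne
    exact ENNReal.sum_lt_top.2 fun k _ => by rw [Real.volume_Ioc]; exact ENNReal.ofReal_lt_top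
  refine (measureReal_mono hsub hfin).trans ?_
  refine (measureReal_biUnion_finset_le s _).trans ?_
  have h6 : ∀ k ∈ s, volume.real (Ioc (((k:ℝ) - 1) * h) (k * h)) = h := by
    intro k _
    rw [Measure.real, Real.volume_Ioc, ENNReal.toReal_ofReal (by nlinarith)]
    ring
  rw [Finset.sum_congr rfl h6, Finset.sum_const, nsmul_eq_mul, mul_comm]
  rfl

/-- the number of cells of the sumset is bounded by the measure of a neighbourhood -/
lemma cells_le_measure {A B : Set ℝ} {h : ℝ} (hh : 0 < h) {n : ℕ} :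
    h * cnt (cells A h n + cells B h n) n
      ≤ (volume.restrict (Ioc 0 (n * h))).real (cthickening (2 * h) (A + B)) := by
  classical
  set s := (cells A h n + cells B h n).filter fun k => 1 ≤ k ∧ k ≤ n with hs
  have hsub : ∀ k ∈ s, Ioc (((k:ℝ) - 1) * h) (k * h) ⊆
      cthickening (2 * h) (A + B) ∩ Ioc 0 (n * h) := by
    intro k hk x hx
    obtain ⟨hk, hk1, hkn⟩ := Finset.mem_filter.1 hk
    obtain ⟨i, hi, j, hj, rfl⟩ := Finset.mem_add.1 hk
    obtain ⟨-, a, ha, ha0, rfl⟩ := mem_cells.1 hi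
    obtain ⟨-, b, hb, hb0, rfl⟩ := mem_cells.1 hj
    have a1 : a / h ≤ ⌈a / h⌉₊ := Nat.le_ceil _
    have a2 : (⌈a / h⌉₊ : ℝ) < a / h + 1 := Nat.ceil_lt_add_one (by positivity)
    have b1 : b / h ≤ ⌈b / h⌉₊ := Nat.le_ceil _
    have b2 : (⌈b / h⌉₊ : ℝ) < b / h + 1 := Nat.ceil_lt_add_one (by positivity)
    rw [div_le_iff₀ hh] at a1 b1
    have a3 : (⌈a / h⌉₊ : ℝ) * h < a + h := by
      have := mul_lt_mul_of_pos_right a2 hh
      rwa [add_mul, div_mul_cancel₀ _ hh.ne', one_mul] at this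
    have b3 : (⌈b / h⌉₊ : ℝ) * h < b + h := by
      have := mul_lt_mul_of_pos_right b2 hh
      rwa [add_mul, div_mul_cancel₀ _ hh.ne', one_mul] at this
    obtain ⟨x1, x2⟩ := hx
    push_cast at x1 x2
    have hk1' : (1:ℝ) ≤ (⌈a / h⌉₊ : ℝ) + ⌈b / h⌉₊ := by exact_mod_cast hk1
    have hkn' : (⌈a / h⌉₊ : ℝ) + ⌈b / h⌉₊ ≤ n := by exact_mod_cast hkn
    refine ⟨mem_cthickening_of_dist_le x (a + b) _ _ (add_mem_add ha hb) ?_, ?_, ?_⟩
    · rw [Real.dist_eq, abs_le]
      constructor <;> nlinarith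
    · nlinarith
    · exact x2.trans (mul_le_mul_of_nonneg_right hkn' hh.le)
  have hd : (s : Set ℕ).PairwiseDisjoint fun k => Ioc (((k:ℝ) - 1) * h) (k * h) := by
    intro i _ j _ hij
    rw [Function.onFun, Set.disjoint_left]
    rintro x ⟨h1, h2⟩ ⟨h3, h4⟩
    rcases lt_or_gt_of_ne hij with h5 | h5
    · have : (i:ℝ) + 1 ≤ j := by exact_mod_cast h5
      nlinarith
    · have : (j:ℝ) + 1 ≤ i := by exact_mod_cast h5
      nlinarith
  have h6 : ∀ k ∈ s, volume.real (Ioc (((k:ℝ) - 1) * h) (k * h)) = h := by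
    intro k _
    rw [Measure.real, Real.volume_Ioc, ENNReal.toReal_ofReal (by nlinarith)]
    ring
  have h7 : h * cnt (cells A h n + cells B h n) n
      = volume.real (⋃ k ∈ s, Ioc (((k:ℝ) - 1) * h) (k * h)) := by
    rw [measureReal_biUnion_finset hd (fun _ _ => measurableSet_Ioc)
      (fun k _ => by rw [Real.volume_Ioc]; exact ENNReal.ofReal_ne_top),
      Finset.sum_congr rfl h6, Finset.sum_const, nsmul_eq_mul, mul_comm]
    rfl
  rw [h7, measureReal_restrict_apply isClosed_cthickening.measurableSet]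
  refine measureReal_mono (iUnion₂_subset hsub) ?_
  exact measure_ne_top_of_subset inter_subset_right
    (by rw [Real.volume_Ioc]; exact ENNReal.ofReal_ne_top)

/-- **Mann's theorem for compact sets** -/
theorem mann_compact {A B : Set ℝ} (hA : IsCompact A) (hB : IsCompact B) (hA0 : (0:ℝ) ∈ A)
    (hB0 : (0:ℝ) ∈ B) {γ W : ℝ} (hγ : γ ≤ 1) (hW : 0 < W)
    (h : ∀ w, 0 < w → w ≤ W →
      γ * w ≤ volume.real (A ∩ Ioc 0 w) + volume.real (B ∩ Ioc 0 w)) :
    γ * W ≤ volume.real ((A + B) ∩ Ioc 0 W) := by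
  have hAB : IsCompact (A + B) := hA.add hB
  set μ : Measure ℝ := volume.restrict (Ioc 0 W) with hμ
  have : IsFiniteMeasure μ := ⟨by
    rw [hμ, Measure.restrict_apply_univ, Real.volume_Ioc]; exact ENNReal.ofReal_lt_top⟩
  -- the discrete inequality
  have key : ∀ n : ℕ, 0 < n → γ * W ≤ μ.real (cthickening (2 * (W / n)) (A + B)) := by
    intro n hn
    have hn' : (0:ℝ) < n := by exact_mod_cast hn
    have hh : 0 < W / n := by positivity
    have hnW : n * (W / n) = W := by field_simp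
    have h1 := mann hγ n (cells A (W / n) n) (cells B (W / n) n) (zero_mem_cells hA0 _ _)
      (zero_mem_cells hB0 _ _) (fun m hm => by
        rcases Nat.eq_zero_or_pos m with rfl | hm0
        · simp only [Nat.cast_zero, mul_zero]; positivity
        have hm0' : (0:ℝ) < m := by exact_mod_cast hm0
        have hmn : (m:ℝ) ≤ n := by exact_mod_cast hm
        have e1 := h (m * (W / n)) (by positivity) (by
          calc (m:ℝ) * (W / n) ≤ n * (W / n) := by gcongr
            _ = W := hnW)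
        have e2 := measure_le_cells A hh hm
        have e3 := measure_le_cells B hh hm
        have e4 : (W / n) * (γ * m) ≤ (W / n) * (cnt (cells A (W / n) n) m
          + cnt (cells B (W / n) n) m) := by
          have : (W / n) * (γ * m) = γ * (m * (W / n)) := by ring
          rw [this, mul_add]
          linarith
        exact le_of_mul_le_mul_left e4 hh)
    have h2 := cells_le_measure (A := A) (B := B) hh (n := n)
    rw [hnW] at h2
    have h3 : (W / n) * (γ * n) = γ * W := by field_simp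
    rw [← h3]
    exact (mul_le_mul_of_nonneg_left h1 hh.le).trans h2
  -- the limit
  have hlim : Tendsto (fun r => μ (cthickening r (A + B))) (𝓝 0) (𝓝 (μ (A + B))) :=
    tendsto_measure_cthickening_of_isClosed ⟨1, one_pos, measure_ne_top _ _⟩ hAB.isClosed
  have hlim2 : Tendsto (fun n : ℕ => μ.real (cthickening (2 * (W / n)) (A + B))) atTop
      (𝓝 (μ.real (A + B))) := by
    refine (ENNReal.tendsto_toReal (measure_ne_top μ (A + B))).comp (hlim.comp ?_)
    have : Tendsto (fun n : ℕ => 2 * (W / (n:ℝ))) atTop (𝓝 (2 * 0)) :=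
      (tendsto_const_div_atTop_nhds_zero_nat W).const_mul 2
    rwa [mul_zero] at this
  have h4 : γ * W ≤ μ.real (A + B) :=
    ge_of_tendsto hlim2 ((eventually_gt_atTop 0).mono fun n hn => key n hn)
  rwa [hμ, measureReal_restrict_apply hAB.isClosed.measurableSet] at h4

end Vale.Agent.P127.Mann
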