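import Mathlib

/-!
# P127, [F]: Mann's theorem (Dyson transform)

If `0 ∈ A`, `0 ∈ B`, `γ ≤ 1` and `A(m) + B(m) ≥ γ m` for all `m ≤ n`, then `(A + B)(n) ≥ γ n`.
-/

set_option autoImplicit false

namespace Vale.Agent.P127.Mann

open Finset
open scoped Pointwise

/-- counting function -/
def cnt (A : Finset ℕ) (m : ℕ) : ℕ := (A.filter fun a => 1 ≤ a ∧ a ≤ m).card

lemma cnt_mono {A B : Finset ℕ} {n : ℕ} (h : ∀ a ∈ A, 1 ≤ a → a ≤ n → a ∈ B) :
    cnt A n ≤ cnt B n := by
  refine card_le_card fun a ha => ?_
  simp only [mem_filter] at ha ⊢
  exact ⟨h a ha.1 ha.2.1 ha.2.2, ha.2⟩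

/-- splitting at `b`: the elements below `b`, and translates by `b` -/
lemma cnt_split {A : Finset ℕ} {b r : ℕ} (hb : 1 ≤ b) (hA0 : 0 ∈ A)
    (h : ∀ a ∈ A, a ≤ r → a + b ∈ A) : cnt A (b - 1) + 1 + cnt A r ≤ cnt A (b + r) := by
  classical
  set S1 := A.filter fun a => 1 ≤ a ∧ a ≤ b - 1
  set S2 := (A.filter fun a => 1 ≤ a ∧ a ≤ r).image (· + b)
  have hd : Disjoint (S1 ∪ {b}) S2 := by
    rw [disjoint_left]
    intro x hx hx2
    simp only [S1, S2, mem_union, mem_filter, mem_singleton, mem_image] at hx hx2
    obtain ⟨a, ⟨-, ha, -⟩, rfl⟩ := hx2
    rcases hx with hx | hx <;> omega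
  have hd1 : Disjoint S1 {b} := by
    rw [disjoint_left]
    intro x hx hx2
    simp only [S1, mem_filter, mem_singleton] at hx hx2
    omega
  have h1 : ((S1 ∪ {b}) ∪ S2).card = cnt A (b - 1) + 1 + cnt A r := by
    rw [card_union_of_disjoint hd, card_union_of_disjoint hd1, card_singleton,
      card_image_of_injective _ (add_left_injective b)]
    rfl
  rw [← h1]
  refine card_le_card fun x hx => ?_
  simp only [S1, S2, mem_union, mem_filter, mem_singleton, mem_image] at hx ⊢
  rcases hx with (hx | rfl) | ⟨a, ⟨ha, ha1, ha2⟩, rfl⟩
  · exact ⟨hx.1, hx.2.1, by omega⟩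
  · refine ⟨?_, hb, by omega⟩
    have := h 0 hA0 (Nat.zero_le _)
    rwa [zero_add] at this
  · exact ⟨h a ha ha2, by omega, by omega⟩

/-- **Mann's theorem** -/
theorem mann {γ : ℝ} (hγ : γ ≤ 1) : ∀ (n : ℕ) (A B : Finset ℕ), 0 ∈ A → 0 ∈ B →
    (∀ m ≤ n, γ * m ≤ cnt A m + cnt B m) → γ * n ≤ cnt (A + B) n := by
  classical
  intro n
  induction n using Nat.strong_induction_on with
  | _ n ihn =>
    have key : ∀ (k : ℕ) (A B : Finset ℕ), cnt B n = k → 0 ∈ A → 0 ∈ B →
        (∀ m ≤ n, γ * m ≤ cnt A m + cnt B m) → γ * n ≤ cnt (A + B) n := by
      intro k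
      induction k using Nat.strong_induction_on with
      | _ k ihk =>
        intro A B hk hA0 hB0 hAB
        have hsub : cnt A n ≤ cnt (A + B) n :=
          cnt_mono fun a ha _ _ => by
            have := add_mem_add ha hB0
            rwa [add_zero] at this
        rcases Nat.eq_zero_or_pos k with hk0 | hkpos
        · have h1 := hAB n le_rfl
          rw [hk, hk0] at h1
          have h2 : (cnt A n : ℝ) ≤ cnt (A + B) n := by exact_mod_cast hsub
          push_cast at h1
          linarith
        by_cases hcl : ∀ a ∈ A, ∀ b ∈ B, 1 ≤ b → a + b ≤ n → a + b ∈ A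
        · -- `A` is closed under adding `B`
          have hne : (B.filter fun a => 1 ≤ a ∧ a ≤ n).Nonempty := by
            rw [← card_pos]
            show 0 < cnt B n
            omega
          obtain ⟨b, hb, hbmin⟩ := exists_min_image _ id hne
          simp only [mem_filter, id] at hb hbmin
          obtain ⟨hbB, hb1, hbn⟩ := hb
          have h1 : cnt A (b - 1) + 1 + cnt A (n - b) ≤ cnt A (b + (n - b)) :=
            cnt_split hb1 hA0 fun a ha har => hcl a ha b hbB hb1 (by omega)
          have e1 : b + (n - b) = n := by omega
          rw [e1] at h1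
          have h2 : cnt B (b - 1) = 0 := by
            unfold cnt
            rw [card_eq_zero, filter_eq_empty_iff]
            intro x hx hx2
            have := hbmin x ⟨hx, hx2.1, by omega⟩
            omega
          have h3 := hAB (b - 1) (by omega)
          rw [h2] at h3
          have h4 := ihn (n - b) (by omega) A B hA0 hB0 fun m hm => hAB m (by omega)
          have h5 : cnt (A + B) (n - b) ≤ cnt A (n - b) := cnt_mono fun c hc hc1 hc2 => by
            obtain ⟨a, ha, b', hb', rfl⟩ := mem_add.1 hc
            rcases Nat.eq_zero_or_pos b' with h0 | h0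
            · rw [h0, add_zero]; exact ha
            · exact hcl a ha b' hb' h0 (by omega)
          have c1 : ((b - 1 : ℕ) : ℝ) = b - 1 := by rw [Nat.cast_sub hb1]; simp
          have c2 : ((n - b : ℕ) : ℝ) = n - b := by rw [Nat.cast_sub hbn]
          rw [c1] at h3
          rw [c2] at h4
          have c3 : (cnt A (b - 1) : ℝ) + 1 + cnt A (n - b) ≤ cnt A n := by exact_mod_cast h1
          have c4 : (cnt (A + B) (n - b) : ℝ) ≤ cnt A (n - b) := by exact_mod_cast h5
          have c5 : (cnt A n : ℝ) ≤ cnt (A + B) n := by exact_mod_cast hsub
          push_cast at h3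
          linarith
        · -- the transform
          push Not at hcl
          have hne : (A.filter fun a => ∃ b ∈ B, 1 ≤ b ∧ a + b ≤ n ∧ a + b ∉ A).Nonempty := by
            obtain ⟨a, ha, b, hb, h1, h2, h3⟩ := hcl
            exact ⟨a, mem_filter.2 ⟨ha, b, hb, h1, h2, h3⟩⟩
          obtain ⟨e, he, hemin⟩ := exists_min_image _ id hne
          simp only [mem_filter, id] at he hemin
          obtain ⟨heA, bb, hbbB, hbb1, hbbn, hbbA⟩ := he
          have hmin : ∀ a ∈ A, a < e → ∀ b ∈ B, 1 ≤ b → a + b ≤ n → a + b ∈ A := by
            intro a ha hae b hb h1 h2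
            by_contra h3
            have := hemin a ⟨ha, b, hb, h1, h2, h3⟩
            omega
          set Bs := B.filter fun b => 1 ≤ b ∧ e + b ≤ n ∧ e + b ∉ A with hBs
          set A' := A ∪ Bs.image (e + ·) with hA'
          set B' := B \ Bs with hB'
          have hBsub : Bs ⊆ B := filter_subset _ _
          have hA0' : 0 ∈ A' := mem_union_left _ hA0
          have hB0' : 0 ∈ B' := by
            rw [hB', mem_sdiff]
            refine ⟨hB0, fun h => ?_⟩
            have := (mem_filter.1 h).2.1
            omega
          have hbbs : bb ∈ Bs := mem_filter.2 ⟨hbbB, hbb1, hbbn, hbbA⟩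
          -- counting functions
          have cA : ∀ m, cnt A' m = cnt A m + (Bs.filter fun b => e + b ≤ m).card := by
            intro m
            have h1 : (A'.filter fun a => 1 ≤ a ∧ a ≤ m) = (A.filter fun a => 1 ≤ a ∧ a ≤ m) ∪
                (Bs.filter fun b => e + b ≤ m).image (e + ·) := by
              ext x
              simp only [hA', mem_filter, mem_union, mem_image]
              constructor
              · rintro ⟨hx | ⟨b, hb, rfl⟩, h1, h2⟩
                · exact Or.inl ⟨hx, h1, h2⟩
                · exact Or.inr ⟨b, ⟨hb, h2⟩, rfl⟩
              · rintro (⟨hx, h1, h2⟩ | ⟨b, ⟨hb, h2⟩, rfl⟩)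
                · exact ⟨Or.inl hx, h1, h2⟩
                · have := (mem_filter.1 hb).2.1
                  exact ⟨Or.inr ⟨b, hb, rfl⟩, by omega, h2⟩
            have hd : Disjoint (A.filter fun a => 1 ≤ a ∧ a ≤ m)
                ((Bs.filter fun b => e + b ≤ m).image (e + ·)) := by
              rw [disjoint_left]
              intro x hx hx2
              simp only [mem_filter, mem_image] at hx hx2
              obtain ⟨b, ⟨hb, -⟩, rfl⟩ := hx2
              exact (mem_filter.1 hb).2.2.2 hx.1
            unfold cnt
            rw [h1, card_union_of_disjoint hd, card_image_of_injective _ (add_right_injective e)]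
          have cB : ∀ m, cnt B' m + (Bs.filter fun b => b ≤ m).card = cnt B m := by
            intro m
            have h1 : (B.filter fun a => 1 ≤ a ∧ a ≤ m) = (B'.filter fun a => 1 ≤ a ∧ a ≤ m) ∪
                (Bs.filter fun b => b ≤ m) := by
              ext x
              simp only [hB', mem_filter, mem_union, mem_sdiff]
              constructor
              · rintro ⟨hx, h1, h2⟩
                by_cases hxs : x ∈ Bs
                · exact Or.inr ⟨hxs, h2⟩
                · exact Or.inl ⟨⟨hx, hxs⟩, h1, h2⟩
              · rintro (⟨⟨hx, -⟩, h1, h2⟩ | ⟨hx, h2⟩)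
                · exact ⟨hx, h1, h2⟩
                · exact ⟨hBsub hx, (mem_filter.1 hx).2.1, h2⟩
            have hd : Disjoint (B'.filter fun a => 1 ≤ a ∧ a ≤ m) (Bs.filter fun b => b ≤ m) := by
              rw [disjoint_left]
              intro x hx hx2
              simp only [hB', mem_filter, mem_sdiff] at hx hx2
              exact hx.1.2 hx2.1
            unfold cnt
            rw [h1, card_union_of_disjoint hd]
          have hcard : cnt B' n < k := by
            have h1 := cB n
            have h2 : 0 < (Bs.filter fun b => b ≤ n).card := by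
              rw [card_pos]
              exact ⟨bb, mem_filter.2 ⟨hbbs, by omega⟩⟩
            omega
          -- the sumset does not increase
          have hsum : cnt (A' + B') n ≤ cnt (A + B) n := cnt_mono fun c hc _ hcn => by
            obtain ⟨a, ha, b, hb, rfl⟩ := mem_add.1 hc
            rw [hB', mem_sdiff] at hb
            rw [hA', mem_union] at ha
            rcases ha with ha | ha
            · exact add_mem_add ha hb.1
            · obtain ⟨bs, hbs, rfl⟩ := mem_image.1 ha
              rcases Nat.eq_zero_or_pos b with h0 | h0
              · rw [h0, add_zero]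
                exact add_mem_add heA (hBsub hbs)
              · have h1 : e + b ∈ A := by
                  by_contra h2
                  exact hb.2 (mem_filter.2 ⟨hb.1, h0, by omega, h2⟩)
                have h2 : e + bs + b = (e + b) + bs := by omega
                rw [h2]
                exact add_mem_add h1 (hBsub hbs)
          refine (ihk (cnt B' n) hcard A' B' rfl hA0' hB0' fun m hm => ?_).trans
            (by exact_mod_cast hsum)
          -- the density condition
          set S := Bs.filter fun b => m < e + b ∧ b ≤ m with hS
          have hSc : (Bs.filter fun b => b ≤ m).card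
              = (Bs.filter fun b => e + b ≤ m).card + S.card := by
            rw [← card_union_of_disjoint]
            · congr 1
              ext x
              simp only [hS, mem_filter, mem_union]
              constructor
              · rintro ⟨hx, h1⟩
                rcases le_or_gt (e + x) m with h2 | h2
                · exact Or.inl ⟨hx, h2⟩
                · exact Or.inr ⟨hx, h2, h1⟩
              · rintro (⟨hx, h1⟩ | ⟨hx, h1, h2⟩)
                · exact ⟨hx, by omega⟩
                · exact ⟨hx, h2⟩
            · rw [disjoint_left]
              intro x hx hx2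
              simp only [hS, mem_filter] at hx hx2
              omega
          have tot : cnt A' m + cnt B' m + S.card = cnt A m + cnt B m := by
            have h1 := cA m
            have h2 := cB m
            omega
          rcases S.eq_empty_or_nonempty with hSe | hSne
          · rw [hSe, card_empty, add_zero] at tot
            have := hAB m hm
            have t : (cnt A' m : ℝ) + cnt B' m = cnt A m + cnt B m := by exact_mod_cast tot
            rw [t]; exact this
          · obtain ⟨b, hb, hbmin⟩ := exists_min_image _ id hSne
            simp only [hS, mem_filter, id] at hb hbmin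
            obtain ⟨hbs, hb1, hb2⟩ := hb
            have hbB := hBsub hbs
            have hbp : 1 ≤ b := (mem_filter.1 hbs).2.1
            have h1 : cnt A (b - 1) + 1 + cnt A (m - b) ≤ cnt A (b + (m - b)) :=
              cnt_split hbp hA0 fun a ha har => hmin a ha (by omega) b hbB hbp (by omega)
            have e1 : b + (m - b) = m := by omega
            rw [e1] at h1
            have h4 := ihn (m - b) (by omega) A B hA0 hB0 fun m' hm' => hAB m' (by omega)
            have h5 : cnt (A + B) (m - b) ≤ cnt A (m - b) := cnt_mono fun c hc hc1 hc2 => by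
              obtain ⟨a, ha, b', hb', rfl⟩ := mem_add.1 hc
              rcases Nat.eq_zero_or_pos b' with h0 | h0
              · rw [h0, add_zero]; exact ha
              · exact hmin a ha (by omega) b' hb' h0 (by omega)
            have h3 := hAB (b - 1) (by omega)
            have h6 : S.card + cnt B (b - 1) ≤ cnt B m := by
              have hd : Disjoint S (B.filter fun a => 1 ≤ a ∧ a ≤ b - 1) := by
                rw [disjoint_left]
                intro x hx hx2
                simp only [hS, mem_filter] at hx hx2
                have := hbmin x hx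
                omega
              unfold cnt
              rw [← card_union_of_disjoint hd]
              refine card_le_card fun x hx => ?_
              simp only [hS, mem_union, mem_filter] at hx ⊢
              rcases hx with ⟨hx, -, h2⟩ | ⟨hx, h1, h2⟩
              · exact ⟨hBsub hx, (mem_filter.1 hx).2.1, h2⟩
              · exact ⟨hx, h1, by omega⟩
            have c1 : ((b - 1 : ℕ) : ℝ) = b - 1 := by rw [Nat.cast_sub hbp]; simp
            have c2 : ((m - b : ℕ) : ℝ) = m - b := by rw [Nat.cast_sub hb2]
            rw [c1] at h3
            rw [c2] at h4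
            have c3 : (cnt A (b - 1) : ℝ) + 1 + cnt A (m - b) ≤ cnt A m := by exact_mod_cast h1
            have c4 : (cnt (A + B) (m - b) : ℝ) ≤ cnt A (m - b) := by exact_mod_cast h5
            have c6 : (S.card : ℝ) + cnt B (b - 1) ≤ cnt B m := by exact_mod_cast h6
            have c7 : (cnt A' m : ℝ) + cnt B' m + S.card = cnt A m + cnt B m := by
              exact_mod_cast tot
            linarith
    intro A B
    exact key _ A B rfl

end Vale.Agent.P127.Mann
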