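import Vale.Agent.P127.Mann.Meas

/-!
# P127, [F]: Mann's theorem for measurable sets, almost everywhere version (final)
-/

set_option autoImplicit false

namespace Vale.Agent.P127.Mann

open Set MeasureTheory Filter Topology Metric
open scoped Pointwise ENNReal

lemma sum_geo {e : ℝ} (he : 0 ≤ e) :
    ∑' i : ℕ, ENNReal.ofReal (e * (1 / 2) ^ i) = ENNReal.ofReal (2 * e) := by
  have h1 : HasSum (fun i : ℕ => e * (1 / 2 : ℝ) ^ i) (e * 2) := hasSum_geometric_two.mul_left e
  rw [← ENNReal.ofReal_tsum_of_nonneg (fun i => by positivity) h1.summable, h1.tsum_eq, mul_comm]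

/-- relative compact approximation near the origin -/
lemma exists_compact {S : Set ℝ} (hS : MeasurableSet S) {α ε W : ℝ} (hε : 0 < ε) (hW : 0 < W)
    (h : ∀ w, 0 < w → w ≤ W → α * w ≤ volume.real (S ∩ Ioc 0 w)) :
    ∃ K : Set ℝ, IsCompact K ∧ (0:ℝ) ∈ K ∧ (∀ x ∈ K, x ≠ 0 → x ∈ S ∧ 0 < x) ∧
      ∀ w, 0 < w → w ≤ W → (α - ε) * w ≤ volume.real (K ∩ Ioc 0 w) := by
  classical
  -- dyadic radii
  set a : ℕ → ℝ := fun k => W * (1 / 2) ^ k with ha
  have ha0 : ∀ k, 0 < a k := fun k => by rw [ha]; positivity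
  have has : ∀ k, a (k + 1) = a k / 2 := fun k => by simp only [ha, pow_succ]; ring
  have haW : ∀ k, a k ≤ W := fun k => by
    rw [ha]; exact mul_le_of_le_one_right hW.le (pow_le_one₀ (by norm_num) (by norm_num))
  have hanti : ∀ {j k}, j ≤ k → a k ≤ a j := fun {j k} hjk => by
    simp only [ha]
    exact mul_le_mul_of_nonneg_left (pow_le_pow_of_le_one (by norm_num) (by norm_num) hjk) hW.le
  have hlim : Tendsto a atTop (𝓝 0) := by
    have := (tendsto_pow_atTop_nhds_zero_of_lt_one (r := (1 / 2 : ℝ)) (by norm_num)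
      (by norm_num)).const_mul W
    rwa [mul_zero] at this
  have hex : ∀ w, 0 < w → w ≤ W → ∃ k, a (k + 1) < w ∧ w ≤ a k := by
    intro w hw hwW
    have h1 : ∃ k, a k < w := (hlim.eventually (gt_mem_nhds hw)).exists
    refine ⟨Nat.find h1 - 1, ?_, ?_⟩
    · have h2 := Nat.find_spec h1
      have h3 : Nat.find h1 ≠ 0 := by
        intro h0
        rw [h0] at h2
        simp only [ha, pow_zero, mul_one] at h2
        linarith
      rwa [Nat.sub_add_cancel (by omega)]
    · have h2 := Nat.find_spec h1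
      have h3 : Nat.find h1 ≠ 0 := by
        intro h0
        rw [h0] at h2
        simp only [ha, pow_zero, mul_one] at h2
        linarith
      exact not_lt.1 (Nat.find_min h1 (by omega : Nat.find h1 - 1 < Nat.find h1))
  -- compact pieces
  have hpiece : ∀ k, ∃ K ⊆ S ∩ Ioc (a (k + 1)) (a k), IsCompact K ∧
      volume ((S ∩ Ioc (a (k + 1)) (a k)) \ K) < ENNReal.ofReal (ε * a k / 4) := by
    intro k
    refine (hS.inter measurableSet_Ioc).exists_isCompact_diff_lt ?_ ?_
    · refine measure_ne_top_of_subset inter_subset_right ?_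
      rw [Real.volume_Ioc]; exact ENNReal.ofReal_ne_top
    · have := ha0 k
      rw [Ne, ENNReal.ofReal_eq_zero, not_le]
      positivity
  choose Kp hKsub hKc hKm using hpiece
  set K : Set ℝ := {0} ∪ ⋃ k, Kp k with hK
  have hKpos : ∀ x ∈ K, x ≠ 0 → x ∈ S ∧ 0 < x := by
    intro x hx hx0
    rcases hx with hx | hx
    · exact absurd hx hx0
    · obtain ⟨k, hk⟩ := mem_iUnion.1 hx
      exact ⟨(hKsub k hk).1, (ha0 _).trans (hKsub k hk).2.1⟩
  have hKW : K ⊆ Icc 0 W := by
    intro x hx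
    rcases hx with hx | hx
    · rw [mem_singleton_iff.1 hx]; exact ⟨le_rfl, hW.le⟩
    · obtain ⟨k, hk⟩ := mem_iUnion.1 hx
      exact ⟨((ha0 _).trans (hKsub k hk).2.1).le, (hKsub k hk).2.2.trans (haW k)⟩
  have hKclosed : IsClosed K := by
    rw [← isOpen_compl_iff, isOpen_iff_mem_nhds]
    intro x hx
    rcases lt_trichotomy x 0 with h1 | h1 | h1
    · filter_upwards [Iio_mem_nhds h1] with y hy hyK
      exact absurd (hKW hyK).1 (not_le.2 hy)
    · exact absurd (Or.inl h1) hx
    · obtain ⟨k₀, hk₀⟩ := (hlim.eventually (gt_mem_nhds (half_pos h1))).exists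
      have hcl : IsClosed (⋃ k ∈ Finset.range k₀, Kp k) :=
        isClosed_biUnion_finset fun k _ => (hKc k).isClosed
      have hxn : x ∈ (⋃ k ∈ Finset.range k₀, Kp k)ᶜ := by
        intro hx2
        obtain ⟨k, -, hk⟩ := mem_iUnion₂.1 hx2
        exact hx (Or.inr (mem_iUnion.2 ⟨k, hk⟩))
      filter_upwards [hcl.isOpen_compl.mem_nhds hxn, Ioi_mem_nhds (half_lt_self h1)] with y hy hy2 hyK
      have hy2' : x / 2 < y := hy2
      rcases hyK with h2 | h2
      · rw [mem_singleton_iff.1 h2] at hy2'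
        linarith
      · obtain ⟨k, hk⟩ := mem_iUnion.1 h2
        have h3 : k < k₀ := by
          by_contra h4
          have h5 := (hKsub k hk).2.2
          have h6 := hanti (not_lt.1 h4)
          linarith
        exact hy (mem_iUnion₂.2 ⟨k, Finset.mem_range.2 h3, hk⟩)
  have hKcpt : IsCompact K := isCompact_Icc.of_isClosed_subset hKclosed hKW
  refine ⟨K, hKcpt, Or.inl rfl, hKpos, fun w hw hwW => ?_⟩
  obtain ⟨k, hk1, hk2⟩ := hex w hw hwW
  have hdiff : volume ((S ∩ Ioc 0 w) \ K) ≤ ENNReal.ofReal (ε * w) := by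
    have hsub : (S ∩ Ioc 0 w) \ K ⊆ ⋃ i, (S ∩ Ioc (a (k + i + 1)) (a (k + i))) \ Kp (k + i) := by
      rintro x ⟨⟨hxS, hx0, hxw⟩, hxK⟩
      obtain ⟨j, hj1, hj2⟩ := hex x hx0 (hxw.trans hwW)
      have hkj : k ≤ j := by
        by_contra h4
        have h5 := hanti (by omega : j + 1 ≤ k)
        linarith
      obtain ⟨i, rfl⟩ := Nat.exists_eq_add_of_le hkj
      exact mem_iUnion.2 ⟨i, ⟨hxS, hj1, hj2⟩, fun h5 => hxK (Or.inr (mem_iUnion.2 ⟨_, h5⟩))⟩
    refine (measure_mono hsub).trans ((measure_iUnion_le _).trans ?_)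
    have h5 : ∀ i, volume ((S ∩ Ioc (a (k + i + 1)) (a (k + i))) \ Kp (k + i))
        ≤ ENNReal.ofReal ((ε * a k / 4) * (1 / 2) ^ i) := by
      intro i
      refine (hKm (k + i)).le.trans (ENNReal.ofReal_le_ofReal (le_of_eq ?_))
      simp only [ha, pow_add]
      ring
    refine (ENNReal.tsum_le_tsum h5).trans ?_
    rw [sum_geo (by have := ha0 k; positivity)]
    refine ENNReal.ofReal_le_ofReal ?_
    rw [has] at hk1
    nlinarith
  have hfin : volume (K ∩ Ioc 0 w) ≠ ⊤ := by
    refine measure_ne_top_of_subset inter_subset_right ?_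
    rw [Real.volume_Ioc]; exact ENNReal.ofReal_ne_top
  have hfin2 : volume ((S ∩ Ioc 0 w) \ K) ≠ ⊤ := (hdiff.trans_lt ENNReal.ofReal_lt_top).ne
  have h6 : volume.real (S ∩ Ioc 0 w)
      ≤ volume.real (K ∩ Ioc 0 w) + volume.real ((S ∩ Ioc 0 w) \ K) := by
    have hsub : S ∩ Ioc 0 w ⊆ (K ∩ Ioc 0 w) ∪ ((S ∩ Ioc 0 w) \ K) := by
      intro x hx
      by_cases hxK : x ∈ K
      · exact Or.inl ⟨hxK, hx.2⟩
      · exact Or.inr ⟨hx, hxK⟩
    refine (measureReal_mono hsub ?_).trans (measureReal_union_le _ _)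
    exact (measure_union_lt_top hfin.lt_top hfin2.lt_top).ne
  have h7 : volume.real ((S ∩ Ioc 0 w) \ K) ≤ ε * w := by
    have := ENNReal.toReal_mono ENNReal.ofReal_ne_top hdiff
    rwa [ENNReal.toReal_ofReal (by positivity)] at this
  have := h w hw hwW
  linarith

/-- density points have full measure -/
lemma dens_full {A : Set ℝ} (hA : MeasurableSet A) :
    ∃ A' : Set ℝ, MeasurableSet A' ∧ A' ⊆ A ∧ (∀ x ∈ A', Dens A x) ∧
      ∀ I : Set ℝ, MeasurableSet I → volume (A' ∩ I) = volume (A ∩ I) := by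
  have h1 := Besicovitch.ae_tendsto_measure_inter_div (volume : Measure ℝ) A
  rw [ae_restrict_iff' hA] at h1
  have h2 : volume {x | ¬ (x ∈ A → Dens A x)} = 0 := h1
  obtain ⟨t, ht1, ht2, ht3⟩ := exists_measurable_superset_of_null h2
  refine ⟨A \ t, hA.diff ht2, sdiff_subset, fun x hx => ?_, fun I _ => ?_⟩
  · by_contra h3
    exact hx.2 (ht1 fun h4 => h3 (h4 hx.1))
  · refine le_antisymm (measure_mono (inter_subset_inter_left _ sdiff_subset)) ?_
    have h4 : A ∩ I ⊆ (A \ t ∩ I) ∪ t := by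
      intro x hx
      by_cases hxt : x ∈ t
      · exact Or.inr hxt
      · exact Or.inl ⟨⟨hx.1, hxt⟩, hx.2⟩
    calc volume (A ∩ I) ≤ volume ((A \ t ∩ I) ∪ t) := measure_mono h4
      _ ≤ volume (A \ t ∩ I) + volume t := measure_union_le _ _
      _ = _ := by rw [ht3, add_zero]

lemma fib_swap (A B : Set ℝ) (s : ℝ) : volume (fib A B s) = volume (fib B A s) := by
  have h1 : fib B A s = (fun x => s - x) ⁻¹' (fib A B s) := by
    ext x
    simp only [fib, mem_setOf_eq, mem_preimage, sub_sub_cancel]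
    exact and_comm
  have h2 : fib A B s = (fun x => s - x) ⁻¹' (fib B A s) := by
    ext x
    simp only [fib, mem_setOf_eq, mem_preimage, sub_sub_cancel]
    exact and_comm
  refine le_antisymm ?_ ?_
  · conv_lhs => rw [h2]
    have := (Measure.measurePreserving_sub_left (volume : Measure ℝ) s)
    exact ((MeasurableEquiv.subLeft s).measurableEmbedding.map_apply (volume : Measure ℝ)
      (fib B A s)).symm.trans_le (by
        show (Measure.map (fun x => s - x) volume) _ ≤ _
        rw [this.map_eq])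
  · conv_lhs => rw [h1]
    have := (Measure.measurePreserving_sub_left (volume : Measure ℝ) s)
    exact ((MeasurableEquiv.subLeft s).measurableEmbedding.map_apply (volume : Measure ℝ)
      (fib A B s)).symm.trans_le (by
        show (Measure.map (fun x => s - x) volume) _ ≤ _
        rw [this.map_eq])

/-- **Mann's theorem, almost everywhere version.** -/
theorem mann_ae {A B D : Set ℝ} (hA : MeasurableSet A) (hB : MeasurableSet B)
    (hD : MeasurableSet D) {α β W : ℝ} (hα : 0 < α) (hβ : 0 < β) (hW : 0 < W)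
    (hAd : ∀ w, 0 < w → w ≤ W → α * w ≤ volume.real (A ∩ Ioc 0 w))
    (hBd : ∀ w, 0 < w → w ≤ W → β * w ≤ volume.real (B ∩ Ioc 0 w))
    (h : (volume.prod volume) {p : ℝ × ℝ | p.1 ∈ A ∧ p.2 ∈ B ∧ p.1 + p.2 ∈ D} = 0) :
    volume.real (D ∩ Ioc 0 W) + min 1 (α + β) * W ≤ W := by
  obtain ⟨A', hA'm, hA's, hA'd, hA'f⟩ := dens_full hA
  obtain ⟨B', hB'm, hB's, hB'd, hB'f⟩ := dens_full hB
  have hnull := ae_fib_null hA hB hD h
  have key : ∀ ε : ℝ, 0 < ε → volume.real (D ∩ Ioc 0 W) + min 1 (α + β - ε) * W ≤ W := by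
    intro ε hε
    obtain ⟨K, hK, hK0, hKS, hKd⟩ := exists_compact hA'm (half_pos hε) hW (α := α) (by
      intro w hw hwW
      have := hAd w hw hwW
      unfold Measure.real at this ⊢
      rwa [hA'f _ measurableSet_Ioc])
    obtain ⟨J, hJ, hJ0, hJS, hJd⟩ := exists_compact hB'm (half_pos hε) hW (α := β) (by
      intro w hw hwW
      have := hBd w hw hwW
      unfold Measure.real at this ⊢
      rwa [hB'f _ measurableSet_Ioc])
    have hm := mann_compact hK hJ hK0 hJ0 (γ := min 1 (α + β - ε)) (min_le_left _ _) hW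
      (fun w hw hwW => by
        have e1 := hKd w hw hwW
        have e2 := hJd w hw hwW
        have e3 : min 1 (α + β - ε) * w ≤ (α + β - ε) * w := by
          gcongr; exact min_le_right _ _
        linarith)
    have hsub : (K + J) ∩ Ioc 0 W ⊆ {s | 0 < volume (fib A B s)} := by
      rintro s ⟨hs, hs0, -⟩
      obtain ⟨a, ha, b, hb, rfl⟩ := mem_add.1 hs
      show 0 < volume (fib A B (a + b))
      by_cases ha0 : a = 0
      · by_cases hb0 : b = 0
        · rw [ha0, hb0, add_zero] at hs0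
          exact absurd hs0 (lt_irrefl _)
        · rw [ha0, zero_add]
          exact fib_pos_of_zero hB hα hW hAd (hB'd b (hJS b hb hb0).1)
      · by_cases hb0 : b = 0
        · rw [hb0, add_zero, fib_swap]
          exact fib_pos_of_zero hA hβ hW hBd (hA'd a (hKS a ha ha0).1)
        · exact fib_pos_of_dens hB (hA'd a (hKS a ha ha0).1) (hB'd b (hJS b hb hb0).1)
    have hdisj : volume (D ∩ Ioc 0 W ∩ ((K + J) ∩ Ioc 0 W)) = 0 := by
      refine measure_mono_null (fun x hx => ?_) hnull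
      exact ⟨hx.1.1, hsub hx.2⟩
    have hKJm : MeasurableSet ((K + J) ∩ Ioc 0 W) :=
      (hK.add hJ).isClosed.measurableSet.inter measurableSet_Ioc
    have hf : ∀ S : Set ℝ, volume (S ∩ Ioc 0 W) ≠ ⊤ := fun S => by
      refine measure_ne_top_of_subset inter_subset_right ?_
      rw [Real.volume_Ioc]; exact ENNReal.ofReal_ne_top
    have h1 := measureReal_union_add_inter (s := D ∩ Ioc 0 W) hKJm (hf D) (hf (K + J))
    have h2 : volume.real (D ∩ Ioc 0 W ∩ ((K + J) ∩ Ioc 0 W)) = 0 := by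
      rw [Measure.real, hdisj]; rfl
    have h3 : volume.real (D ∩ Ioc 0 W ∪ (K + J) ∩ Ioc 0 W) ≤ W := by
      have e1 : volume.real (Ioc (0:ℝ) W) = W := by
        rw [Measure.real, Real.volume_Ioc, ENNReal.toReal_ofReal (by linarith)]; ring
      calc _ ≤ volume.real (Ioc (0:ℝ) W) := measureReal_mono
            (union_subset inter_subset_right inter_subset_right)
            (by rw [Real.volume_Ioc]; exact ENNReal.ofReal_ne_top)
        _ = W := e1
    linarith
  -- the limit
  have hlim : Tendsto (fun ε : ℝ => volume.real (D ∩ Ioc 0 W) + min 1 (α + β - ε) * W) (𝓝[>] 0)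
      (𝓝 (volume.real (D ∩ Ioc 0 W) + min 1 (α + β - 0) * W)) := by
    refine Tendsto.mono_left ?_ nhdsWithin_le_nhds
    exact (Continuous.tendsto (by fun_prop) 0)
  rw [sub_zero] at hlim
  exact le_of_tendsto hlim (by
    filter_upwards [self_mem_nhdsWithin] with ε hε
    exact key ε hε)

end Vale.Agent.P127.Mann
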