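import Vale.Agent.P127.Mann.Cpt

/-!
# P127, [F]: Mann's theorem for measurable sets, almost everywhere version

If `|A ∩ (0,w]| ≥ α w`, `|B ∩ (0,w]| ≥ β w` for all `0 < w ≤ W` (`α, β > 0`) and `a + b ∉ D` for
almost all `(a, b) ∈ A × B`, then `|D ∩ (0, W]| ≤ (1 - min 1 (α + β)) W`.
-/

set_option autoImplicit false

namespace Vale.Agent.P127.Mann

open Set MeasureTheory Filter Topology Metric
open scoped Pointwise ENNReal

/-- pairs with sum `s` -/
def fib (A B : Set ℝ) (s : ℝ) : Set ℝ := {x | x ∈ A ∧ s - x ∈ B}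

/-- if `A` and `s - B` fill more than an interval, then there are many pairs -/
lemma fib_pos {A B : Set ℝ} (hB : MeasurableSet B) {s p q : ℝ}
    (hpq : p ≤ q)
    (h : q - p < volume.real (A ∩ Icc p q) + volume.real (B ∩ Icc (s - q) (s - p))) :
    0 < volume (fib A B s) := by
  set B' : Set ℝ := (fun x => s - x) ⁻¹' (B ∩ Icc (s - q) (s - p)) with hB'
  have hB'm : MeasurableSet B' :=
    (hB.inter measurableSet_Icc).preimage (measurable_const.sub measurable_id)
  have h1 : volume.real B' = volume.real (B ∩ Icc (s - q) (s - p)) := by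
    unfold Measure.real
    rw [hB', (Measure.measurePreserving_sub_left volume s).measure_preimage
      (hB.inter measurableSet_Icc).nullMeasurableSet]
  have hsub : B' ⊆ Icc p q := by
    rintro x ⟨-, h2, h3⟩
    simp only at h2 h3
    exact ⟨by linarith, by linarith⟩
  have hfin : volume (Icc p q) ≠ ⊤ := by rw [Real.volume_Icc]; exact ENNReal.ofReal_ne_top
  have hf1 : volume (A ∩ Icc p q) ≠ ⊤ := measure_ne_top_of_subset inter_subset_right hfin
  have hf2 : volume B' ≠ ⊤ := measure_ne_top_of_subset hsub hfin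
  have h2 := measureReal_union_add_inter (s := A ∩ Icc p q) hB'm hf1 hf2
  have h3 : volume.real (A ∩ Icc p q ∪ B') ≤ q - p := by
    have : volume.real (Icc p q) = q - p := by
      rw [Measure.real, Real.volume_Icc, ENNReal.toReal_ofReal (by linarith)]
    rw [← this]
    exact measureReal_mono (union_subset inter_subset_right hsub) hfin
  have h4 : 0 < volume.real (A ∩ Icc p q ∩ B') := by
    rw [h1] at h2
    linarith
  have h5 : A ∩ Icc p q ∩ B' ⊆ fib A B s := fun x hx => ⟨hx.1.1, hx.2.1⟩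
  have h6 : 0 < volume (A ∩ Icc p q ∩ B') := by
    by_contra h7
    rw [not_lt, nonpos_iff_eq_zero] at h7
    rw [Measure.real, h7] at h4
    simp at h4
  exact h6.trans_le (measure_mono h5)

/-- density one at `x` -/
def Dens (A : Set ℝ) (x : ℝ) : Prop :=
  Tendsto (fun r => volume (A ∩ closedBall x r) / volume (closedBall x r)) (𝓝[>] 0) (𝓝 1)

lemma Dens.ev {A : Set ℝ} {x : ℝ} (h : Dens A x) {ε : ℝ} (hε : 0 < ε) :
    ∀ᶠ r : ℝ in 𝓝[>] 0, (1 - ε) * (2 * r) ≤ volume.real (A ∩ Icc (x - r) (x + r)) := by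
  have h1 : ∀ᶠ r : ℝ in 𝓝[>] 0, ENNReal.ofReal (1 - ε) <
      volume (A ∩ closedBall x r) / volume (closedBall x r) := by
    refine h.eventually_const_lt ?_
    rw [ENNReal.ofReal_lt_one]
    linarith
  filter_upwards [h1, self_mem_nhdsWithin] with r hr hr0
  have hr0' : (0:ℝ) < r := hr0
  rw [Real.closedBall_eq_Icc, Real.volume_Icc] at hr
  have e1 : x + r - (x - r) = 2 * r := by ring
  rw [e1] at hr
  have h2 : ENNReal.ofReal (2 * r) ≠ 0 := by
    rw [Ne, ENNReal.ofReal_eq_zero]; linarith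
  rw [ENNReal.lt_div_iff_mul_lt (Or.inl h2) (Or.inl ENNReal.ofReal_ne_top),
    ← ENNReal.ofReal_mul' (by positivity)] at hr
  have hfin : volume (A ∩ Icc (x - r) (x + r)) ≠ ⊤ := by
    refine measure_ne_top_of_subset inter_subset_right ?_
    rw [Real.volume_Icc]; exact ENNReal.ofReal_ne_top
  exact (ENNReal.ofReal_le_iff_le_toReal hfin).1 hr.le

/-- density points of `A` and `B` -/
lemma fib_pos_of_dens {A B : Set ℝ} (hB : MeasurableSet B) {a b : ℝ} (ha : Dens A a)
    (hb : Dens B b) : 0 < volume (fib A B (a + b)) := by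
  obtain ⟨r, ⟨h1, h2⟩, hr⟩ := (((ha.ev (ε := 1 / 4) (by norm_num)).and
    (hb.ev (ε := 1 / 4) (by norm_num))).and self_mem_nhdsWithin).exists
  have hr0 : (0:ℝ) < r := hr
  refine fib_pos hB (p := a - r) (q := a + r) (by linarith) ?_
  have e1 : a + b - (a + r) = b - r := by ring
  have e2 : a + b - (a - r) = b + r := by ring
  rw [e1, e2]
  linarith

/-- density point of `B`, and the origin -/
lemma fib_pos_of_zero {A B : Set ℝ} (hB : MeasurableSet B) {α W b : ℝ} (hα : 0 < α) (hW : 0 < W)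
    (hA : ∀ w, 0 < w → w ≤ W → α * w ≤ volume.real (A ∩ Ioc 0 w)) (hb : Dens B b) :
    0 < volume (fib A B b) := by
  obtain ⟨r, ⟨h1, h2⟩, hr⟩ := (((hb.ev (ε := α / 4) (by positivity)).and
    (Ioc_mem_nhdsGT hW)).and self_mem_nhdsWithin).exists
  have hr0 : (0:ℝ) < r := hr
  refine fib_pos hB (p := 0) (q := r) hr0.le ?_
  simp only [sub_zero]
  have hA' : α * r ≤ volume.real (A ∩ Icc 0 r) := by
    refine (hA r hr0 h2.2).trans (measureReal_mono (inter_subset_inter_right _ Ioc_subset_Icc_self)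
      ?_)
    refine measure_ne_top_of_subset inter_subset_right ?_
    rw [Real.volume_Icc]; exact ENNReal.ofReal_ne_top
  have hB' : r - α / 2 * r ≤ volume.real (B ∩ Icc (b - r) b) := by
    have hsub : B ∩ Icc (b - r) (b + r) ⊆ (B ∩ Icc (b - r) b) ∪ Icc b (b + r) := by
      rintro x ⟨hx, hx1, hx2⟩
      rcases le_total x b with h3 | h3
      · exact Or.inl ⟨hx, hx1, h3⟩
      · exact Or.inr ⟨h3, hx2⟩
    have hfin : volume ((B ∩ Icc (b - r) b) ∪ Icc b (b + r)) ≠ ⊤ := by
      have hs : B ∩ Icc (b - r) b ∪ Icc b (b + r) ⊆ Icc (b - r) b ∪ Icc b (b + r) :=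
        union_subset_union_left _ inter_subset_right
      refine ((measure_mono hs).trans_lt (measure_union_lt_top ?_ ?_)).ne <;>
      · rw [Real.volume_Icc]; exact ENNReal.ofReal_lt_top
    have h4 := (measureReal_mono hsub hfin).trans (measureReal_union_le _ _)
    have h5 : volume.real (Icc b (b + r)) = r := by
      rw [Measure.real, Real.volume_Icc, ENNReal.toReal_ofReal (by linarith)]; ring
    rw [h5] at h4
    linarith
  nlinarith

/-- null set of sums -/
lemma ae_fib_null {A B D : Set ℝ} (hA : MeasurableSet A) (hB : MeasurableSet B)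
    (hD : MeasurableSet D)
    (h : (volume.prod volume) {p : ℝ × ℝ | p.1 ∈ A ∧ p.2 ∈ B ∧ p.1 + p.2 ∈ D} = 0) :
    volume (D ∩ {s | 0 < volume (fib A B s)}) = 0 := by
  set N : Set (ℝ × ℝ) := {p | p.1 ∈ A ∧ p.2 - p.1 ∈ B ∧ p.2 ∈ D} with hN
  have hNm : MeasurableSet N :=
    ((hA.preimage measurable_fst).inter
      ((hB.preimage (measurable_snd.sub measurable_fst)).inter (hD.preimage measurable_snd)))
  have h1 : (volume.prod volume) N = 0 := by
    have h2 := (measurePreserving_prod_add (volume : Measure ℝ) volume).measure_preimage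
      hNm.nullMeasurableSet
    rw [← h2, ← h]
    congr 1
    ext p
    simp only [hN, mem_preimage, mem_setOf_eq, add_sub_cancel_left]
  have h3 : (volume.prod volume) (Prod.swap ⁻¹' N) = 0 := by
    rw [Measure.measurePreserving_swap.measure_preimage hNm.nullMeasurableSet]
    exact h1
  have h4 := Measure.measure_ae_null_of_prod_null h3
  have h5 : ∀ᵐ s : ℝ, s ∉ D ∩ {s | 0 < volume (fib A B s)} := by
    filter_upwards [h4] with s hs hsD
    have h6 : fib A B s ⊆ Prod.mk s ⁻¹' (Prod.swap ⁻¹' N) := fun x hx => ⟨hx.1, hx.2, hsD.1⟩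
    have h7 := (hsD.2 : 0 < volume (fib A B s)).trans_le (measure_mono h6)
    rw [hs] at h7
    simp at h7
  exact measure_eq_zero_iff_ae_notMem.2 h5

end Vale.Agent.P127.Mann
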